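import Mathlib
import Vale.Agent.Lib.P339.Defs

/-!
# P339: the least possible value of a 2-to-1 game, and the case q = 2
-/

namespace Vale.Agent.Results.P339.AlphabetBounds

open Finset
open Vale.Agent.Lib.P339

variable {q : ℕ}

theorem satProb_le_one (G : Game q) (A : G.U → Fin (2 * q)) (B : G.V → Fin q) :
    G.satProb A B ≤ 1 := by
  unfold Game.satProb
  rw [← G.μ_sum]
  apply sum_le_sum
  intro e _
  split_ifs
  · exact le_rfl
  · exact G.μ_nonneg e

theorem le_value (G : Game q) (A : G.U → Fin (2 * q)) (B : G.V → Fin q) :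
    G.satProb A B ≤ G.value := by
  unfold Game.value
  apply le_ciSup (f := fun L : (G.U → Fin (2 * q)) × (G.V → Fin q) => G.satProb L.1 L.2) _ (A, B)
  exact ⟨1, by rintro _ ⟨L, rfl⟩; exact satProb_le_one G L.1 L.2⟩

/-- some labeling has satisfied weight at least `1/q`. -/
theorem exists_labeling (hq : 1 ≤ q) (G : Game q) :
    ∃ (A : G.U → Fin (2 * q)) (B : G.V → Fin q), 1 / (q : ℝ) ≤ G.satProb A B := by
  have h2q : 0 < 2 * q := by omega
  let A : G.U → Fin (2 * q) := fun _ => ⟨0, h2q⟩
  have hsum : ∑ k : Fin q, G.satProb A (fun _ => k) = 1 := by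
    unfold Game.satProb
    rw [sum_comm, ← G.μ_sum]
    apply sum_congr rfl
    intro e _
    rw [sum_ite_eq]
    simp
  by_contra hcon
  push Not at hcon
  have hlt : ∀ k : Fin q, G.satProb A (fun _ => k) < 1 / (q : ℝ) := fun k => hcon A _
  have : Nonempty (Fin q) := ⟨⟨0, by omega⟩⟩
  have : ∑ k : Fin q, G.satProb A (fun _ => k) < ∑ _k : Fin q, 1 / (q : ℝ) :=
    sum_lt_sum_of_nonempty univ_nonempty fun k _ => hlt k
  rw [hsum, sum_const, card_univ, Fintype.card_fin, nsmul_eq_mul] at this
  have hq0 : (q : ℝ) ≠ 0 := by positivity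
  rw [mul_one_div_cancel hq0] at this
  exact lt_irrefl _ this

/-- `a ↦ ⌊a/2⌋`. -/
def half (a : Fin (2 * q)) : Fin q := ⟨a.val / 2, by have := a.isLt; omega⟩

theorem card_half (c : Fin q) : (univ.filter fun a : Fin (2 * q) => half a = c).card = 2 := by
  have h1 : 2 * c.val < 2 * q := by have := c.isLt; omega
  have h2 : 2 * c.val + 1 < 2 * q := by have := c.isLt; omega
  have : (univ.filter fun a : Fin (2 * q) => half a = c)
      = {(⟨2 * c.val, h1⟩ : Fin (2 * q)), ⟨2 * c.val + 1, h2⟩} := by
    ext a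
    simp only [mem_filter, mem_univ, true_and, mem_insert, mem_singleton, half, Fin.ext_iff]
    omega
  rw [this, card_pair]
  simp [Fin.ext_iff]

/-- the cyclic game: one vertex on each side, constraints `π_k(a) = ⌊a/2⌋ + k mod q`, uniform weights. -/
noncomputable def cyclicGame (q : ℕ) [NeZero q] : Game q where
  U := Unit
  V := Unit
  E := Fin q
  fintypeU := inferInstance
  fintypeV := inferInstance
  fintypeE := inferInstance
  nonemptyE := ⟨0⟩
  src := fun _ => ()
  tgt := fun _ => ()
  proj := fun k a => half a + k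
  μ := fun _ => 1 / (q : ℝ)
  μ_nonneg := fun _ => by positivity
  μ_sum := by
    rw [sum_const, card_univ, Fintype.card_fin, nsmul_eq_mul]
    exact mul_one_div_cancel (by exact_mod_cast NeZero.ne q)
  two_to_one := by
    intro k b
    have h : (univ.filter fun a : Fin (2 * q) => half a + k = b)
        = univ.filter fun a : Fin (2 * q) => half a = b - k := by
      ext a
      simp only [mem_filter, mem_univ, true_and]
      exact eq_sub_iff_add_eq.symm
    rw [h]
    exact card_half (b - k)

theorem cyclic_satProb (q : ℕ) [NeZero q] (A : (cyclicGame q).U → Fin (2 * q))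
    (B : (cyclicGame q).V → Fin q) : (cyclicGame q).satProb A B = 1 / (q : ℝ) := by
  unfold Game.satProb
  show ∑ k : Fin q, (if half (A ()) + k = B () then 1 / (q : ℝ) else 0) = 1 / (q : ℝ)
  rw [sum_eq_single (B () - half (A ()))]
  · simp
  · intro k _ hk
    rw [if_neg]
    intro h
    apply hk
    rw [← h]; abel
  · intro h; exact absurd (mem_univ _) h

theorem affine_of_balanced : ∀ π : Fin 4 → Fin 2,
    (∀ b, (univ.filter fun a => π a = b).card = 2) →
    ∃ α₁ α₀ β : ZMod 2, (α₁ ≠ 0 ∨ α₀ ≠ 0) ∧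
      ∀ a : Fin 4, ((π a).val : ZMod 2) = α₁ * ((a.val / 2 : ℕ) : ZMod 2) + α₀ * ((a.val % 2 : ℕ) : ZMod 2) + β := by
  decide

/-- (1) Every 2-to-1 game with alphabets `[2q]`, `[q]` has a labeling of satisfied weight at least
`1/q`, so its value is at least `1/q`; (2) this is sharp for every `q`; (3) for `q = 2` every
constraint is a nondegenerate affine equation over the field with two elements in the bits of the labels. -/
theorem result :
    (∀ q : ℕ, 1 ≤ q → ∀ G : Game q, 1 / (q : ℝ) ≤ G.value) ∧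
    (∀ q : ℕ, 1 ≤ q → ∃ G : Game q, G.value = 1 / (q : ℝ)) ∧
    (∀ G : Game 2, ∃ α₁ α₀ β : G.E → ZMod 2, (∀ e, α₁ e ≠ 0 ∨ α₀ e ≠ 0) ∧
      ∀ (A : G.U → Fin (2 * 2)) (B : G.V → Fin 2) (e : G.E),
        G.Sat A B e ↔
          α₁ e * (((A (G.src e)).val / 2 : ℕ) : ZMod 2) + α₀ e * (((A (G.src e)).val % 2 : ℕ) : ZMod 2)
            + β e = ((B (G.tgt e)).val : ZMod 2)) := by
  refine ⟨?_, ?_, ?_⟩
  · intro q hq G
    obtain ⟨A, B, h⟩ := exists_labeling hq G
    exact h.trans (le_value G A B)
  · intro q hq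
    have : NeZero q := ⟨by omega⟩
    refine ⟨cyclicGame q, ?_⟩
    unfold Game.value
    have h2q : 0 < 2 * q := by omega
    have : Nonempty (((cyclicGame q).U → Fin (2 * q)) × ((cyclicGame q).V → Fin q)) :=
      ⟨(fun _ => ⟨0, h2q⟩, fun _ => 0)⟩
    simp only [cyclic_satProb]
    exact ciSup_const
  · intro G
    have h := fun e => affine_of_balanced (G.proj e) (G.two_to_one e)
    choose α₁ α₀ β h1 h2 using h
    refine ⟨α₁, α₀, β, h1, ?_⟩
    intro A B e
    unfold Game.Sat
    rw [← h2 e (A (G.src e))]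
    constructor
    · intro h; rw [h]
    · intro h
      generalize G.proj e (A (G.src e)) = x at h
      generalize B (G.tgt e) = y at h
      revert x y
      decide

end Vale.Agent.Results.P339.AlphabetBounds
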